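import Vale.Agent.P290.Bdl.B1
import Vale.Agent.P290.K.AllDefs

/-! Local inverses of etale sprays. -/

open Set Filter Metric
open scoped Topology Manifold ContDiff

namespace Vale.Agent.P290Z.Inv

open Vale.Agent.P290

variable {V W X : Type} [NormedAddCommGroup V] [NormedSpace ℂ V] [NormedAddCommGroup W]
  [NormedSpace ℂ W] [TopologicalSpace X] [ChartedSpace C2 X]

theorem md_iff {f : V → X} {z : V} : MDifferentiableAt 𝓘(ℂ, V) 𝓘(ℂ, C2) f z ↔
    ContinuousAt f z ∧ DifferentiableAt ℂ (fun w => chartAt C2 (f z) (f w)) z := by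
  rw [mdifferentiableAt_iff]
  simp only [mfld_simps, differentiableWithinAt_univ]
  rfl

theorem md_comp {f : V → X} {q : W → V} {w : W}
    (h : MDifferentiableAt 𝓘(ℂ, V) 𝓘(ℂ, C2) f (q w)) (hq : DifferentiableAt ℂ q w) :
    MDifferentiableAt 𝓘(ℂ, W) 𝓘(ℂ, C2) (fun u => f (q u)) w :=
  h.comp w hq.mdifferentiableAt

theorem det_ne_iff {A : C2 →L[ℂ] C2} : A.det ≠ 0 ↔ Function.Injective A := by
  rw [ContinuousLinearMap.det, Ne, LinearMap.det_eq_zero_iff_ker_ne_bot, not_not,
    LinearMap.ker_eq_bot]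
  rfl

variable [IsManifold 𝓘(ℂ, C2) ω X]

theorem trans_contDiffAt {x x' : X} {v : C2} (h : v ∈ (chartAt C2 x).target)
    (h' : (chartAt C2 x).symm v ∈ (chartAt C2 x').source) :
    ContDiffAt ℂ ω (fun w => chartAt C2 x' ((chartAt C2 x).symm w)) v := by
  have h1 : ContMDiffAt 𝓘(ℂ, C2) 𝓘(ℂ, C2) ω (chartAt C2 x).symm v :=
    contMDiffOn_chart_symm.contMDiffAt ((chartAt C2 x).open_target.mem_nhds h)
  have h2 : ContMDiffAt 𝓘(ℂ, C2) 𝓘(ℂ, C2) ω (chartAt C2 x') ((chartAt C2 x).symm v) :=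
    contMDiffOn_chart.contMDiffAt ((chartAt C2 x').open_source.mem_nhds h')
  exact (h2.comp v h1).contDiffAt

/-- change of the chart -/
theorem chart_change {f : V → X} {z : V} {x x' : X} (hc : ContinuousAt f z)
    (h : f z ∈ (chartAt C2 x).source) (h' : f z ∈ (chartAt C2 x').source)
    (hd : DifferentiableAt ℂ (fun w => chartAt C2 x (f w)) z) :
    DifferentiableAt ℂ (fun w => chartAt C2 x' (f w)) z ∧ ∃ A : C2 →L[ℂ] C2,
      fderiv ℂ (fun w => chartAt C2 x' (f w)) z =
        A.comp (fderiv ℂ (fun w => chartAt C2 x (f w)) z) := by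
  have h1 : DifferentiableAt ℂ (fun w => chartAt C2 x' ((chartAt C2 x).symm w))
      (chartAt C2 x (f z)) :=
    (trans_contDiffAt ((chartAt C2 x).map_source h)
      (by rw [(chartAt C2 x).left_inv h]; exact h')).differentiableAt (by simp)
  have h2 : (fun w => chartAt C2 x' (f w)) =ᶠ[𝓝 z]
      (fun w => chartAt C2 x' ((chartAt C2 x).symm w)) ∘ fun w => chartAt C2 x (f w) := by
    filter_upwards [hc.eventually ((chartAt C2 x).open_source.mem_nhds h)] with w hw
    simp only [Function.comp, (chartAt C2 x).left_inv hw]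
  exact ⟨(h1.comp z hd).congr_of_eventuallyEq h2, _, h2.fderiv_eq.trans (fderiv_comp z h1 hd)⟩

theorem md_chart {f : V → X} {z : V} (h : MDifferentiableAt 𝓘(ℂ, V) 𝓘(ℂ, C2) f z) {x : X}
    (hx : f z ∈ (chartAt C2 x).source) : DifferentiableAt ℂ (fun w => chartAt C2 x (f w)) z :=
  (chart_change h.continuousAt (mem_chart_source C2 _) hx (md_iff.1 h).2).1

theorem md_of_chart {f : V → X} {z : V} (hc : ContinuousAt f z) {x : X}
    (hx : f z ∈ (chartAt C2 x).source)
    (hd : DifferentiableAt ℂ (fun w => chartAt C2 x (f w)) z) :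
    MDifferentiableAt 𝓘(ℂ, V) 𝓘(ℂ, C2) f z :=
  md_iff.2 ⟨hc, (chart_change hc hx (mem_chart_source C2 _) hd).1⟩

theorem etale_of_chart {f : C2 → X} {v : C2} (hc : ContinuousAt f v) {x : X}
    (hx : f v ∈ (chartAt C2 x).source)
    (hd : DifferentiableAt ℂ (fun w => chartAt C2 x (f w)) v)
    (hi : Function.Injective (fderiv ℂ (fun w => chartAt C2 x (f w)) v)) : All.Etale f v := by
  have h1 := (chart_change hc hx (mem_chart_source C2 _) hd).1
  obtain ⟨-, A, hA⟩ := chart_change hc (mem_chart_source C2 _) hx h1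
  refine ⟨hc, h1, det_ne_iff.2 ?_⟩
  rw [hA] at hi
  exact Function.Injective.of_comp (f := A) hi

omit [IsManifold 𝓘(ℂ, C2) ω X] in
theorem etale_md {f : C2 → X} {v : C2} (h : All.Etale f v) :
    MDifferentiableAt 𝓘(ℂ, C2) 𝓘(ℂ, C2) f v := md_iff.2 ⟨h.1, h.2.1⟩

theorem etale_inj {f : C2 → X} {v : C2} (h : All.Etale f v) {x : X}
    (hx : f v ∈ (chartAt C2 x).source) :
    Function.Injective (fderiv ℂ (fun w => chartAt C2 x (f w)) v) := by
  obtain ⟨-, A, hA⟩ := chart_change h.1 hx (mem_chart_source C2 _) (md_chart (etale_md h) hx)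
  have hi := det_ne_iff.1 h.2.2
  rw [hA] at hi
  exact Function.Injective.of_comp (f := A) hi

omit [IsManifold 𝓘(ℂ, C2) ω X] in
/-- composition with a map of `ℂ²` with injective derivative -/
theorem etale_comp {f : C2 → X} {q : C2 → C2} {v : C2} (h : All.Etale f (q v))
    (hq : DifferentiableAt ℂ q v) (hi : Function.Injective (fderiv ℂ q v)) :
    All.Etale (fun w => f (q w)) v := by
  refine ⟨ContinuousAt.comp (g := f) (f := q) h.1 hq.continuousAt,
    DifferentiableAt.comp (g := fun w => chartAt C2 (f (q v)) (f w)) (f := q) v h.2.1 hq,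
    det_ne_iff.2 ?_⟩
  have := fderiv_comp (g := fun w => chartAt C2 (f (q v)) (f w)) (f := q) v h.2.1 hq
  rw [show (fun w => chartAt C2 (f (q v)) (f (q w))) =
    (fun w => chartAt C2 (f (q v)) (f w)) ∘ q from rfl, this]
  exact (det_ne_iff.1 h.2.2).comp hi

theorem fderiv_slice {g : V × C2 → C2} {y : V × C2} (h : DifferentiableAt ℂ g y) :
    fderiv ℂ (fun s => g (y.1, s)) y.2 =
      (fderiv ℂ g y).comp (ContinuousLinearMap.inr ℂ V C2) :=
  (HasFDerivAt.comp (f := fun s : C2 => ((y.1, s) : V × C2)) y.2 h.hasFDerivAt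
    (hasFDerivAt_prodMk_right _ _)).fderiv

variable [FiniteDimensional ℂ V]

/-- the points at which a spray is etale form an open set -/
theorem etale_eventually {G : V × C2 → X} {y : V × C2}
    (hG : ∀ᶠ z in 𝓝 y, MDifferentiableAt 𝓘(ℂ, V × C2) 𝓘(ℂ, C2) G z)
    (he : All.Etale (fun s => G (y.1, s)) y.2) :
    ∀ᶠ z in 𝓝 y, All.Etale (fun s => G (z.1, s)) z.2 := by
  have hs : ∀ᶠ z in 𝓝 y, G z ∈ (chartAt C2 (G y)).source :=
    hG.self_of_nhds.continuousAt.eventually (chart_source_mem_nhds C2 _)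
  have hd : ∀ᶠ z in 𝓝 y, DifferentiableAt ℂ (fun w => chartAt C2 (G y) (G w)) z := by
    filter_upwards [hG, hs] with z h1 h2 using md_chart h1 h2
  have h1 : ContinuousAt (fderiv ℂ fun w => chartAt C2 (G y) (G w)) y :=
    (contDiffAt_of_eventually hd 1).continuousAt_fderiv (by simp)
  have h2 : ContinuousAt (fun z => ((fderiv ℂ (fun w => chartAt C2 (G y) (G w)) z).comp
      (ContinuousLinearMap.inr ℂ V C2)).det) y :=
    ContinuousLinearMap.continuous_det.continuousAt.comp (h1.clm_comp continuousAt_const)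
  have h3 := he.2.2
  rw [show (fun z => chartAt C2 (G (y.1, y.2)) (G (y.1, z))) =
    fun s => (fun w => chartAt C2 (G y) (G w)) (y.1, s) from rfl,
    fderiv_slice hd.self_of_nhds] at h3
  filter_upwards [hG, hs, hd, h2.eventually_ne h3] with z a1 a2 a3 a4
  have a5 : DifferentiableAt ℂ (fun s : C2 => ((z.1, s) : V × C2)) z.2 := by fun_prop
  refine etale_of_chart (x := G y) (md_comp (q := fun s : C2 => (z.1, s)) a1 a5).continuousAt a2
    (DifferentiableAt.comp (f := fun s : C2 => ((z.1, s) : V × C2)) z.2 a3 a5) ?_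
  rw [← fderiv_slice a3] at a4
  exact det_ne_iff.1 a4

/-- the local inverse of `(x, s) ↦ (x, G (x, s))` -/
theorem exists_local_inv {G : V × C2 → X} {y : V × C2}
    (hG : ∀ᶠ z in 𝓝 y, MDifferentiableAt 𝓘(ℂ, V × C2) 𝓘(ℂ, C2) G z)
    (he : All.Etale (fun s => G (y.1, s)) y.2) :
    ∃ σ : V × X → V × C2, (∀ᶠ z in 𝓝 y, σ (z.1, G z) = z) ∧
      (∀ᶠ p in 𝓝 (y.1, G y), ((σ p).1, G (σ p)) = p) ∧ ContinuousAt σ (y.1, G y) ∧
      ∀ (W : Type) [NormedAddCommGroup W] [NormedSpace ℂ W] (a : W → V) (b : W → X) (w : W),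
        DifferentiableAt ℂ a w → MDifferentiableAt 𝓘(ℂ, W) 𝓘(ℂ, C2) b w →
        (a w, b w) = (y.1, G y) → DifferentiableAt ℂ (fun u => σ (a u, b u)) w := by
  have : CompleteSpace V := FiniteDimensional.complete ℂ V
  set c := chartAt C2 (G y) with hc
  have hs : ∀ᶠ z in 𝓝 y, G z ∈ c.source :=
    hG.self_of_nhds.continuousAt.eventually (chart_source_mem_nhds C2 _)
  have hd : ∀ᶠ z in 𝓝 y, DifferentiableAt ℂ (fun w => c (G w)) z := by
    filter_upwards [hG, hs] with z h1 h2 using md_chart h1 h2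
  set g' := fderiv ℂ (fun w => c (G w)) y with hg'
  have h1 : HasStrictFDerivAt (fun w => c (G w)) g' y :=
    (contDiffAt_of_eventually hd 1).hasStrictFDerivAt one_ne_zero
  have h3 := det_ne_iff.1 he.2.2
  rw [show (fun z => chartAt C2 (G (y.1, y.2)) (G (y.1, z))) =
    fun s => (fun w => c (G w)) (y.1, s) from rfl, fderiv_slice hd.self_of_nhds] at h3
  let L : V × C2 →L[ℂ] V × C2 := (ContinuousLinearMap.fst ℂ V C2).prod g'
  have hL : Function.Injective L := by
    refine (injective_iff_map_eq_zero L).2 ?_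
    rintro ⟨ξ, η⟩ h
    have e1 : ξ = 0 := congrArg Prod.fst h
    have e2 : g' (ξ, η) = 0 := congrArg Prod.snd h
    subst e1
    have e3 : η = 0 := h3 (a₂ := 0) (by rw [map_zero]; exact e2)
    rw [e3]; rfl
  let L' : (V × C2) ≃L[ℂ] V × C2 :=
    (LinearEquiv.ofInjectiveEndo (L : V × C2 →ₗ[ℂ] V × C2) hL).toContinuousLinearEquiv
  let f : V × C2 → V × C2 := fun w => (w.1, c (G w))
  have hf : HasStrictFDerivAt f (L' : V × C2 →L[ℂ] V × C2) y :=
    (hasStrictFDerivAt_fst.prodMk h1).congr_fderiv (by ext <;> rfl)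
  let j : V × X → V × C2 := fun p => (p.1, c p.2)
  have hj : ContinuousAt j (y.1, G y) :=
    continuousAt_fst.prodMk (ContinuousAt.comp (g := c) (f := Prod.snd)
      (c.continuousAt (mem_chart_source C2 _)) continuousAt_snd)
  have hσ : ContinuousAt (fun p => hf.localInverse f L' y (j p)) (y.1, G y) :=
    ContinuousAt.comp (f := j) (x := (y.1, G y)) hf.localInverse_continuousAt hj
  have hσ' : Tendsto (fun p => hf.localInverse f L' y (j p)) (𝓝 (y.1, G y)) (𝓝 y) := by
    have := hσ.tendsto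
    rwa [show hf.localInverse f L' y (j (y.1, G y)) = y from hf.localInverse_apply_image] at this
  refine ⟨fun p => hf.localInverse f L' y (j p), hf.eventually_left_inverse, ?_, hσ, ?_⟩
  · have a1 : ∀ᶠ p : V × X in 𝓝 (y.1, G y), p.2 ∈ c.source :=
      continuousAt_snd.eventually (chart_source_mem_nhds C2 (G y))
    filter_upwards [a1, hσ'.eventually hs, hj.eventually hf.eventually_right_inverse] with
      p b1 b2 b3
    have b4 := congrArg Prod.fst b3
    have b5 := congrArg Prod.snd b3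
    exact Prod.ext b4 (c.injOn b2 b1 b5)
  · intro W _ _ a b w ha hb h
    have e1 : a w = y.1 := congrArg Prod.fst h
    have e2 : b w = G y := congrArg Prod.snd h
    have a1 : DifferentiableAt ℂ (fun u => j (a u, b u)) w :=
      ha.prodMk (md_chart hb (by rw [e2]; exact mem_chart_source C2 _))
    refine DifferentiableAt.comp (g := hf.localInverse f L' y) w ?_ a1
    rw [h]
    exact hf.to_localInverse.hasFDerivAt.differentiableAt

end Vale.Agent.P290Z.Inv
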